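import Vale.Agent.P354CO.Defs
import Vale.Agent.P354EF.Defs

/-!
The inputs of the row SYSO: the output of the hierarchy and two estimates in finite time.
-/

open scoped ENNReal
open Set Filter

noncomputable section

namespace Vale.Agent.P354SO

open Vale.Agent.P354XG Vale.Agent.P354XD Vale.Agent.P354Z Vale.Agent.P354CV Vale.Agent.P354SI
open Vale.Agent.P354BF (rp)
open Vale.Agent.P354YH (sm)
open Vale.Agent.P354EF (Sml)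

/-- The integral of eta over ri ≤ r ≤ ρ, a ≤ t ≤ b, up to the lid. -/
def Ye (E : Est) (n : ℕ) (ri ρ a b : ℝ) : ℝ≥0∞ :=
  Yz E (E.eta n) {x | ri ≤ x.2.1 ∧ x.2.1 ≤ ρ ∧ a ≤ x.1 ∧ x.1 ≤ b}

/-- The hypotheses on r ≤ ρ, a ≤ t ≤ b. -/
structure Lc (c : Cs) (E : Est) (n : ℕ) (δ ρ a b : ℝ) : Prop where
  sh : E.Shape c
  eq : E.Eqs c
  rs : ρ + 1 ≤ c.Rs
  par : |E.M - c.M| + |E.a - c.a| ≤ δ
  t1 : c.t1 - 2 ≤ a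
  sml : ∀ x ∈ E.O1, An x → x.2.1 ≤ ρ → a ≤ x.1 → x.1 ≤ b → Sml c E n δ x

/-- The estimate in the time w. -/
def UNITN : Prop := ∀ (c : Cs) (n w : ℕ) (ri ro ρ : ℝ), c.Ok → 1 ≤ n → ri < ro →
  ro < rp c.M c.a → c.R1 ≤ ρ → ∃ C δ : ℝ, 0 < δ ∧ ∀ (E : Est) (a : ℝ),
    Lc c E n δ (ρ + 2 * w + 4) (a - 1) (a + w + 1) →
      Ye E n ro ρ a (a + w) ≤ ENNReal.ofReal C * Ye E n ri (ρ + 2 * w + 4) (a - 1) a

/-- The estimate in the interior. -/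
def INNER : Prop := ∀ M0 a0 r1 ri ro : ℝ, ri < ro → ro < rp M0 a0 → ∃ l : ℕ,
  ∀ (c : Cs) (n : ℕ), c.Ok → c.M = M0 → c.a = a0 → c.r1 = r1 → 1 ≤ n → ∃ C δ : ℝ, 0 < δ ∧
    ∀ (E : Est) (a : ℝ), Lc c E n δ ro (a - l) (a + 2) →
      Ye E n 0 ri a (a + 1) ≤ ENNReal.ofReal C * Ye E n ri ro (a - l) (a + 2)

/-- The output of the hierarchy. -/
def OUTP (P : Pr) (m : ℕ) : Prop := ∃ n2, ∀ n, n2 ≤ n → ∀ R, ∃ C, 0 ≤ C ∧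
  ∀ᶠ σ in F0 P (n + 4) ⊓ P354CO.GT P m (n + 4), sm P.Q σ.K (fy P n R σ) ≤ C * σ.D

theorem outp_iff (P : Pr) (m : ℕ) (Γ : ℕ → ℝ → St P → ℕ → ℝ) :
    OUTP P m ↔ (sys P (P354CO.GT P m) Γ).OUT := Iff.rfl

/-- The parameters of the hierarchy. -/
def pr (z : Z1) (a : C1) (b : C2) (Q rI rb : ℝ) (n : Bool → ℕ) (g : ℕ) : Pr :=
  ⟨cs z a b ⟨0, 0, 0⟩ ⟨0, 0⟩, Q, rI, rb, n, g⟩

theorem pr_cs (z : Z1) (a : C1) (b : C2) (Q rI rb : ℝ) (n : Bool → ℕ) (g : ℕ) (c : C3) (d : C4) :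
    (pr z a b Q rI rb n g).cs c.R2 c.Rs d.B d.cw c.K = cs z a b c d := rfl

/-- The hierarchy holds, in the order of the constants. -/
def SYSI : Prop := ∀ (z : Z1) (a : C1) (Q : ℝ), Q = 5 / 2 ∨ Q = 14 / 5 →
  ∃ (rI rb : ℝ) (n : Bool → ℕ) (g m0 : ℕ), ∀ m ≥ m0, ∃ N1, ∀ b : C2, N1 ≤ b.N0 →
    ∀ c d, (cs z a b c d).Ok → (pr z a b Q rI rb n g).Ok ∧ OUTP (pr z a b Q rI rb n g) m

end Vale.Agent.P354SO
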