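import Vale.Agent.P354SI.Rows
import Vale.Agent.P354CP.Defs
import Vale.Agent.P354CO.Slab
import Vale.Agent.P354XR.Es

/-!
The row SYSO from the hierarchy and the local estimates.
-/

open Set Filter

noncomputable section

namespace Vale.Agent.P354SO

open Vale.Agent.P354Z Vale.Agent.P354CV Vale.Agent.P354SI Vale.Agent.P354CO Vale.Agent.P354CP

theorem syso (h : SOUT) (h1 : LOC) (h0 : LOC0) : SYSO TabE := fun Q hQ z a => by
  obtain ⟨m0, h⟩ := h z a Q hQ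
  refine ⟨max m0 36, fun m hm => ?_⟩
  obtain ⟨N1, h⟩ := h m (le_of_max_le_left hm)
  have hm := le_of_max_le_right hm
  refine ⟨max N1 4, fun b hb => ?_⟩
  by_cases e : ∃ c d, (cs z a b c d).Ok
  swap
  · exact ⟨0, fun L _ => ⟨0, fun R _ => ⟨0, 0, fun K _ R2 _ Rs d o => (e ⟨_, _, o⟩).elim⟩⟩⟩
  obtain ⟨c', d', o'⟩ := e
  obtain ⟨⟨_, _, rI, rb, n, g⟩, rfl, rfl, hP, n2, h⟩ := h b (le_of_max_le_left hb) c' d' o'
  refine ⟨n2 + 2 * b.L0 + m + g + 60, fun L hL => ⟨0, fun R _ => ?_⟩⟩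
  obtain ⟨R', C1, c1, k1⟩ := h1 _ hP (L + 12) R (⌈b.c0⌉₊ + 4) (by omega)
  obtain ⟨C2, c2, k2⟩ := h (L + 12) (by omega) R'
  obtain ⟨R'', e, he, k⟩ := ev_iff.1 ((k1.filter_mono (F0_anti (Nat.le_add_right _ 4))).and
    (eventually_inf_principal.1 k2))
  refine ⟨2 * L + 36 + b.N0, max R'' (R + 6 * z.M + (⌈b.c0⌉₊ + 4 : ℕ) + 5),
    fun K hK R2 h2 Rs d o => ?_⟩
  have r : R2 ≤ Rs := by
    have : 10 * R2 ≤ Rs := o.Rs
    have : 10 * z.R1 ≤ R2 := o.R2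
    have : 10 * z.M + 10 ≤ z.R1 := o.R1
    have : |z.a| < z.M := o.aM
    linarith [abs_nonneg z.a]
  obtain ⟨δ, hδ, C0, c0, k0⟩ := h0 _ (L + 12) (⌈b.c0⌉₊ + 4) _ R o (by omega)
    (show _ ≤ K by omega) (le_of_max_le_right hb) hP.Q0 ((le_of_max_le_right h2).trans r)
  refine ⟨min δ (e (cs z a b ⟨K, R2, Rs⟩ d)), lt_min hδ (he _), C0 + C1 * (1 + C2) * d.B ^ 2,
    by positivity, fun E ε s T D A ⟨d0, nt, q, n0, sp, tl, dq⟩ => ?_⟩
  have D0 : 0 ≤ D := (sq_nonneg _).trans d0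
  have w : b.c0 + 4 ≤ (⌈b.c0⌉₊ + 4 : ℕ) := by push_cast; linarith [Nat.le_ceil b.c0]
  rcases le_total (T + 1) a.t1 with t | t
  · refine (k0 E L ε A.bo (A.le.trans (min_le_left _ _)) (show _ + b.L0 + 1 ≤ L by omega)).mono
      (mul_le_mul (le_add_of_nonneg_right (by positivity)) d0 (sq_nonneg _) (by positivity))
      fun _ _ => Yl_mono le_rfl le_rfl le_rfl (min_le_min_left _ ?_)
    show T + b.c0 + 4 ≤ a.t1 + _
    linarith
  have DB : D ≤ d.B ^ 2 * D := le_mul_of_one_le_left D0 (one_le_pow₀ o.B)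
  have N : P354XR.Nr (cs z a b ⟨K, R2, Rs⟩ d) E := ⟨A.bo.is.shape.co1, A.bo.is.eqs,
    ((abs_nonneg _).trans_lt A.bo.is.eqs.par.1).ne'⟩
  have f := Nat.floor_le (sub_nonneg.2 t)
  obtain ⟨u, v⟩ := k ⟨R2, Rs, d.B, d.cw, K, E, s, T, ⌊T + 1 - a.t1⌋₊, L, ε,
    min δ (e (cs z a b ⟨K, R2, Rs⟩ d)), d.B ^ 2 * D, nt, q, N.raw, o, A.bo.is, A.lv, A.top,
    show a.t1 + _ ≤ _ by linarith, A.bo.pos, A.bo.e0, A.bo.dec, n0, sp, tl, fun k => (dq k).trans DB,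
    (mul_pow _ _ _).trans_le (mul_le_mul_of_nonneg_left d0 (sq_nonneg _)), A.D0.trans DB,
    rfl, rfl, rfl⟩ ⟨show _ + b.L0 + 20 ≤ L by omega, show _ + b.N0 + 20 ≤ K by omega,
      le_of_max_le_left h2, A.le.trans (min_le_right _ _), min_le_right _ _,
      show g + b.L0 + 20 ≤ L by omega, show g + b.N0 + b.L0 + 20 ≤ K by omega⟩
  refine (u _ le_rfl).mono ((mul_le_mul_of_nonneg_left (add_le_add_right
    (v ⟨show _ ≤ L + m by omega, show _ ≤ L by omega, A.tb⟩) _) c1).trans ?_)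
    fun _ _ => Yl_mono le_rfl le_rfl le_rfl (min_le_min_left _ ?_)
  · show C1 * (d.B ^ 2 * D + C2 * (d.B ^ 2 * D)) ≤ _
    nlinarith [mul_nonneg c0 D0]
  · show T + b.c0 + 4 ≤ a.t1 + (⌊T + 1 - a.t1⌋₊ : ℝ) + _
    linarith [Nat.lt_floor_add_one (T + 1 - a.t1)]

end Vale.Agent.P354SO
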