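import Vale.Agent.P354SO.Nr2
import Vale.Agent.P354XR.Dict
import Vale.Agent.P354IF.Def2

/-!
The near side of the layer: the flux against the words of top order.
-/

namespace Vale.Agent.P354SO

open P354XG P354XD P354XF P354XR P354CV P354Z P354BO P354XI P354YH P354SI Filter
open P354FA (Lt)
open P354IF (ix Dw Mv NRT)
open P354XT (Op)

section alg
variable {A : Type} [CommRing A] [Algebra ℂ A] {R : Raw A} {φ : A →ₐ[ℂ] ℂ} {μ r s ρ : ℝ}
  {I : List (Fin 5)} {k i n : ℕ} (h : Fp R φ μ r)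
include h

theorem Fp.tp1 (hn : I.length + (1 + k) = n) (T : Tw (fun v => φ (Dw R.T.G v (R.T.ps true))) 0 i n
    ρ r s) (hρ : 0 ≤ ρ) (hs : 0 ≤ s) (h8 : 1 + I.length ≤ i) :
    ρ * ‖φ (tp R.brg true (I.map .inl ++ [.inl 1] ++ (List.replicate k 0).map .inl))‖ ≤
      64 * (4 * (72 * μ)) ^ n * r ^ 3 * s := by
  refine h.tp_le (v0 := [(true, true)]) (y0 := [(false, true)]) (p := 0) hn T hρ hs
    (fun v hv e => ?_) (by simpa [pr, an] using h.row 1 (true, true))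
    (fun u => .bia true u (Nat.zero_le _)) le_rfl (by simp) h8 rfl
  obtain ⟨x, rfl⟩ := List.length_eq_one_iff.1 hv
  rw [List.map_singleton, pr, hr_ap, (xc_eq R _).2.1]
  rcases x with ⟨_ | _, _ | _⟩
  exacts [by simp [ix, KC.xe], by simp [ix, KC.xe], by simp [ix, KC.xe], absurd rfl e]

theorem Fp.tp2 (hn : I.length + (0 + k) = n) (T : Tw (fun v => φ (Dw R.T.G v (R.T.ps true))) 0 i n
    ρ r s) (hρ : 0 ≤ ρ) (hs : 0 ≤ s) (h8 : 0 + I.length ≤ i) :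
    ρ * ‖φ (tp R.brg true (I.map .inl ++ [] ++ (List.replicate k 0).map .inl))‖ ≤
      64 * (4 * (72 * μ)) ^ n * r ^ 4 * s :=
  h.tp_le (v0 := []) (y0 := []) (p := 0) hn T hρ hs
    (fun _ hv e => absurd (List.length_eq_zero_iff.1 hv) e) (by simp [pr])
    (fun _ => .perm _ (.refl _)) zero_le_one (by simp) h8 rfl

theorem Fp.tp3 (hn : I.length + (3 + k) = n) (T : Tw (fun v => φ (Dw R.T.G v (R.T.ps false))) 4 i n
    ρ r s) (hρ : 0 ≤ ρ) (hs : 0 ≤ s) (h8 : 3 + I.length ≤ i) :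
    ρ * ‖φ (tp R.brg false (I.map .inl ++ [.inr 0, .inr 1, .inr 2] ++
      (List.replicate k 0).map .inl))‖ ≤ 64 * (4 * (72 * μ)) ^ n * r ^ 3 * s := by
  refine h.tp_le (v0 := [(false, false), (false, false), (false, false)])
    (y0 := [(true, false), (true, false), (true, false)]) (p := 6) (k1 := 1) hn T hρ hs
    (fun v hv e => ?_) ?_ (fun u => ?_) le_rfl (by simp) h8 rfl
  · obtain ⟨x, y, z, rfl⟩ := List.length_eq_three.1 hv
    simp only [List.map, pr, hr_inr]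
    split_ifs with a b c
    · exact absurd (by rw [a, b, c]) e
    all_goals simp
  · have m := h.m1
    have : Le φ _ (72 * μ * r ^ 2) := (h.bas2.2.2.2.2.1.mul h.bas.2.1).mono (by nlinarith)
    simp only [List.map, pr, hr_inr, if_true, mul_one]
    refine (mul_le_mul this (mul_le_mul this this (norm_nonneg _) (by positivity)) (by positivity)
      (by positivity)).trans_eq ?_
    simp only [List.length]
    ring
  · exact .trans (.symm (.bia false _ le_rfl)) (.trans (.perm _ (.swap _ _ _))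
      (.trans (.symm (.bia false _ (by omega : 2 ≤ 3))) (.trans (.perm _
        (((List.Perm.swap _ _ _).cons _).trans (.swap _ _ _)))
          (.symm (.bia false _ (by omega : 1 ≤ 3))))))

end alg

theorem wt_le {R r γ K s T E F : ℝ} {e : ℕ} (h1 : 1 ≤ R) (h2 : 0 < r) (h3 : r ≤ 3 * R)
    (h4 : e = 3 ∨ e = 4) (h5 : γ + 2 * e ≤ 31 / 10) (hT : r ^ (31 / 20 : ℝ) * T ≤ K * r ^ e * s)
    (T0 : 0 ≤ T) (F0 : 0 ≤ F) (hF : F ≤ T + E) :
    R ^ γ * F ^ 2 ≤ 486 * K ^ 2 * s ^ 2 + 2 * E ^ 2 := by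
  obtain ⟨β, hβ⟩ : ∃ β : ℝ, β = 2 * e - 31 / 10 := ⟨_, rfl⟩
  have b : 0 ≤ β ∧ β ≤ 5 := by rcases h4 with rfl | rfl <;> rw [hβ] <;> norm_num
  have a1 : T ^ 2 ≤ r ^ β * (K ^ 2 * s ^ 2) := by
    refine le_of_mul_le_mul_left ?_ (pow_pos (Real.rpow_pos_of_pos h2 (31 / 20)) 2)
    rw [← mul_pow, ← mul_assoc, ← Real.rpow_natCast (r ^ _) 2, ← Real.rpow_mul h2.le,
      ← Real.rpow_add h2, show 31 / 20 * (2 : ℕ) + β = (e * 2 : ℕ) by rw [hβ]; push_cast; ring,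
      Real.rpow_natCast, pow_mul]
    exact (pow_le_pow_left₀ (by positivity) hT 2).trans_eq (by ring)
  have a2 : R ^ γ * r ^ β ≤ 243 := by
    refine (mul_le_mul_of_nonneg_left (Real.rpow_le_rpow h2.le h3 b.1) (by positivity)).trans ?_
    rw [Real.mul_rpow (by norm_num) (by linarith), mul_left_comm, ← Real.rpow_add (by linarith)]
    refine (mul_le_of_le_one_right (by positivity)
      (Real.rpow_le_one_of_one_le_of_nonpos h1 (by linarith))).trans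
        ((Real.rpow_le_rpow_of_exponent_le (by norm_num) b.2).trans_eq (by norm_num))
  have a3 : R ^ γ ≤ 1 := Real.rpow_le_one_of_one_le_of_nonpos h1 (by linarith [b.1])
  have a0 : 0 ≤ R ^ γ := by positivity
  have a4 : F ^ 2 ≤ 2 * T ^ 2 + 2 * E ^ 2 :=
    (pow_le_pow_left₀ F0 hF 2).trans (by nlinarith [sq_nonneg (T - E)])
  nlinarith [mul_le_mul_of_nonneg_left a4 a0, mul_le_mul_of_nonneg_left a1 a0,
    mul_le_mul_of_nonneg_right a2 (mul_nonneg (sq_nonneg K) (sq_nonneg s)),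
    mul_le_mul_of_nonneg_right a3 (sq_nonneg E)]

theorem q2_wt {O : Set E6} {ι : Type} [Fintype ι] {X : ι → P354XG.Der (Sm (on O))} {x : E6}
    {q B : ℝ} {m n : ℕ} {f : Sm (on O)} (hq : 0 < q) (hm : m ≤ n) (hc : Fintype.card ι ≤ 5)
    (h : ∀ w : List ι, w.length ≤ m → q * ‖fv (wd X w f) x‖ ^ 2 ≤ B) :
    q * q2 X x m f ≤ 6 ^ n * B := by
  have B0 : 0 ≤ B := le_trans (by positivity) (h [] (Nat.zero_le _))
  rw [← le_div_iff₀' hq, mul_div_assoc]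
  refine (q2_le m f fun w hw => (le_div_iff₀' hq).2 (h w hw)).trans
    (mul_le_mul_of_nonneg_right ((pow_le_pow_left₀ (by positivity) ?_ m).trans
      (pow_le_pow_right₀ (by norm_num) hm)) (by positivity))
  have : (Fintype.card ι : ℝ) ≤ 5 := by exact_mod_cast hc
  linarith

section st
variable {c : P354Z.Cs} {E : Est} (h : Nr c E)

theorem ev_r (x : E.O1) : evP x h.raw.brg.r = x.1.2.1 ∧ evP x h.raw.brg.M = E.M ∧
    evP x h.raw.brg.a = E.a := ⟨fv_z 1 x.2, (evP x).commutes _, (evP x).commutes _⟩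

theorem lh_eq (i : Fin 3) {t : ℝ} (ht : t = (i : ℕ)) (e : Op) (u : Sm (on E.O1)) :
    oph h.raw.brg.X E.M E.a (.lh t e) u = gw h.raw.brg [.inr i] (oph h.raw.brg.X E.M E.a e u) := by
  refine ext_fv h.co.op fun x hx => ?_
  have k : ∀ f : ℝ → ℝ, ContDiff ℝ (⊤ : ℕ∞) f → evP ⟨x, hx⟩ (rf E.O1 f) = f x.2.1 := fun f hf =>
    fv_fr1 (g := fun r => f r) (Complex.ofRealCLM.contDiff.comp hf) hx
  obtain ⟨e1, e2, e3⟩ := ev_r h ⟨x, hx⟩
  change evP ⟨x, hx⟩ _ = evP ⟨x, hx⟩ _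
  simp only [Op.lh, oph, gw, gr, g0, Fin.sum_univ_five, Matrix.cons_val, map_add, map_mul, map_sub,
    map_ofNat, map_natCast, map_zero, e1, e2, e3]
  rw [k _ (by unfold P354BF.De; fun_prop), k _ (by fun_prop), k _ (by fun_prop), k _ (by fun_prop),
    ht, P354BF.De]
  push_cast
  ring

theorem l3_eq (w : List (Fin 2)) (u : Sm (on E.O1)) :
    wd ![h.raw.brg.X 0, h.raw.brg.X 4] w (oph h.raw.brg.X E.M E.a Op.l3 u) =
      gw h.raw.brg ((w.map ![0, 4]).map .inl ++ [.inr 0, .inr 1, .inr 2]) u := by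
  rw [gw_map, Op.l3, lh_eq h 0 (by simp), lh_eq h 1 (by simp), lh_eq h 2 (by simp)]
  induction w with
  | nil => rfl
  | cons a w ih => rw [wd, ih]; fin_cases a <;> rfl

theorem nr_fp (x : E.O1) (a : An x) (hr : 5 / 4 * |c.M| + 1 ≤ x.1.2.1) :
    Fp h.raw (evP x) (5 / 4 * |c.M| + 1) x.1.2.1 := by
  have m : E.M ≤ 5 / 4 * |c.M| + 1 := by linarith [h.eq.par.2, le_abs_self c.M]
  refine ⟨h.cj fun _ => rfl, (ev_r h x).1, ⟨nq x, ?_, a.1, by linarith [a.2]⟩, ?_,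
    ⟨E.a, (ev_r h x).2.2, h.eq.par.1.le.trans m⟩, by linarith [abs_nonneg c.M], hr⟩
  · rw [show h.raw.K.N = _ from congrArg KC.N h.kk]
    exact (fv_in _ x.2).trans (ev_on rs_N x.2)
  · exact (congrArg _ (ev_r h x).2.1).trans_le (by rwa [Complex.norm_real, Real.norm_eq_abs,
      abs_of_pos h.Mp])

end st

theorem pt_le {O : Set E6} {S : Raw (Sm (on O))} {M a : ℝ}
    (l3 : ∀ w u, wd ![S.brg.X 0, S.brg.X 4] w (oph S.brg.X M a Op.l3 u) =
      gw S.brg ((w.map ![0, 4]).map .inl ++ [.inr 0, .inr 1, .inr 2]) u)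
    (x : O) (b : Bool) {n t i L : ℕ} {μ R s e : ℝ} (h1 : n < t) (h2 : n + 1 ≤ i)
    (h3 : n + 1 ≤ L) (h4 : 4 ≤ n) (hR : 1 ≤ R) (hr : x.1.2.1 ≤ 3 * R)
    (fp : Fp S (evP x) μ x.1.2.1) (top : ∀ σ (w : List Gl) (J : List (Fin 5)), w.length ≤ L →
      (w.length + J.length ≤ t → ‖evP x (gw S.brg w (S.brg.fm σ J))‖ ≤ e) ∧
      (w.length + J.length = t + 1 → J ≠ [] → ‖evP x (gw S.brg w (S.brg.fm σ J) -
        tp S.brg σ (w ++ J.map .inl))‖ ≤ e))
    (tw : Tw (fun v => evP x (Dw S.T.G v (S.T.ps b))) (cond b 0 4) i (t + 1)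
      (x.1.2.1 ^ (31 / 20 : ℝ)) x.1.2.1 s) (hs : 0 ≤ s) :
    cond b (R ^ (1 / 10 - 3 : ℝ) * q2 S.brg.X x n (S.brg.X 1 (S.brg.fm b
        (List.replicate (t - n) 0))) + R ^ (1 / 10 - 7 : ℝ) * q2 S.brg.X x (n + 1)
          (S.brg.fm b (List.replicate (t - n) 0)))
      (R ^ (-3 : ℝ) * q2 ![S.brg.X 0, S.brg.X 4] x (n - 2) (oph S.brg.X M a Op.l3
        (S.brg.fm b (List.replicate (t - n) 0)))) ≤
      2 * (6 ^ (t + 1) * (486 * (64 * (4 * (72 * μ)) ^ (t + 1)) ^ 2 * s ^ 2 + 2 * e ^ 2)) := by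
  have r0 : 0 < x.1.2.1 := one_pos.trans_le fp.r1
  have m1 := fp.m1
  have ρ0 : 0 ≤ x.1.2.1 ^ (31 / 20 : ℝ) := by positivity
  have wl : ∀ (w : List Gl) (p : ℕ) (γ : ℝ), p = 3 ∨ p = 4 → γ + 2 * p ≤ 31 / 10 →
      w.length ≤ n + 1 → (w.length = n + 1 → x.1.2.1 ^ (31 / 20 : ℝ) * ‖evP x
        (tp S.brg b (w ++ (List.replicate (t - n) 0).map .inl))‖ ≤
          64 * (4 * (72 * μ)) ^ (t + 1) * x.1.2.1 ^ p * s) →
      R ^ γ * ‖fv (gw S.brg w (S.brg.fm b (List.replicate (t - n) 0))) x‖ ^ 2 ≤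
        486 * (64 * (4 * (72 * μ)) ^ (t + 1)) ^ 2 * s ^ 2 + 2 * e ^ 2 :=
    fun w p γ a1 a2 a3 a4 => by
    have k := top b w (List.replicate (t - n) 0) (by omega)
    rw [List.length_replicate] at k
    rcases a3.eq_or_lt with a | a
    · refine wt_le hR r0 hr a1 a2 (a4 a) (norm_nonneg _) (norm_nonneg _) ?_
      have := k.2 (by omega) (by simp; omega)
      rw [map_sub] at this
      exact (norm_le_norm_add_norm_sub' _ _).trans (add_le_add_right this _)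
    · exact wt_le (T := 0) hR r0 hr a1 a2 (by rw [mul_zero]; positivity) le_rfl
        (norm_nonneg _) ((k.1 (by omega)).trans_eq (zero_add _).symm)
  have R0 : ∀ γ : ℝ, 0 < R ^ γ := fun γ => Real.rpow_pos_of_pos (by linarith) γ
  rw [two_mul]
  cases b
  · rw [cond_false]
    refine (q2_wt (R0 _) (show _ ≤ t + 1 by omega) (by simp) fun w hw => ?_).trans
      (le_add_of_nonneg_left (by positivity))
    rw [l3]
    exact wl _ 3 _ (.inl rfl) (by norm_num) (by simp; omega) fun a =>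
      fp.tp3 (by simp at a ⊢; omega) tw ρ0 hs (by simp; omega)
  · rw [cond_true]
    refine add_le_add (q2_wt (R0 _) (show n ≤ t + 1 by omega) (by simp) fun w hw => ?_)
      (q2_wt (R0 _) (show n + 1 ≤ t + 1 by omega) (by simp) fun w hw => ?_)
    · have := wl (w.map .inl ++ [.inl 1]) 3 (1 / 10 - 3) (.inl rfl) (by norm_num)
        (by simp; omega) fun a => by
          have k := fp.tp1 (I := w) (k := t - n) (by simp at a; omega) tw ρ0 hs (by omega)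
          exact k
      rwa [gw_map, gw_inl] at this
    · have := wl (w.map .inl ++ []) 4 (1 / 10 - 7) (.inr rfl) (by norm_num)
        (by simp; omega) fun a => by
          have k := fp.tp2 (I := w) (k := t - n) (by simp at a; omega) tw ρ0 hs (by omega)
          exact k
      rwa [gw_map] at this

/-- The hypotheses of the family at the points of the states. -/
theorem st_pq {P : Pr} (hP : P.Ok) (t w : ℕ) (ρ : ℝ) : ∃ K C, 0 < C ∧ ∀ᶠ σ in F0 P t,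
    ∃ h : Nr σ.c σ.E, σ.R = h.raw ∧ ∀ (x : σ.E.O1) (j : ℕ), An x → x.1.2.1 ≤ ρ →
      |x.1.1 - P.c.t1 - j| ≤ w → h.raw.brg.Pq (P.c.N0 - 10) (t + 2) K (C * fh P σ j) (evP x) := by
  by_cases z : 0 < P.c.M ∧ 0 < P.c.r1
  swap
  · exact ⟨1, 1, one_pos, .of_forall fun σ => (z (r1_pos (c := σ.c) σ.ok)).elim⟩
  have hN := hP.N0
  have hs := hP.s1
  obtain ⟨Cd, cd, kd⟩ := dict hP t w ρ
  obtain ⟨Cb, b0, kb⟩ := bootp hs hP.s3 (w + ⌈P.c.c0⌉₊)
  obtain ⟨C0, k0, c0⟩ := ((est_pq z.1 z.2 ρ (P.c.N0 - 10) (t + 2)).and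
    (eventually_ge_atTop 1)).exists
  obtain ⟨C1, c1, c2, c3⟩ := ((eventually_ge_atTop (P.c.C (max ρ (P.c.R1 + 3)) * Cb * 2)).and
    ((eventually_ge_atTop (Real.exp (4 + 2 * ((t + 2) / 2 : ℕ)) * wt P.c.s0 w)).and
      (eventually_ge_atTop 1))).exists
  have c7 : 0 < C0 * C1 := by positivity
  refine ⟨C0, C0 * C1, c7, ?_⟩
  filter_upwards [kd, ev_LK t, ev_e t (show 0 < min (1 / 2) (min (C0 * C1)⁻¹ (P.c.M / 2 / Cd)) by
    have := z.1; positivity)] with σ par hL he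
  obtain ⟨e1, e2, e3⟩ : _ ∧ _ ∧ _ := by simpa only [le_min_iff] using he.1
  have e0 := σ.e0
  have ok := σ.ok
  have t1 : 0 ≤ P.c.t1 := zero_le_two.trans ok.t1
  have D0 : σ.E.Dec P.c.L0 P.c.s0 σ.eps := fun x hx n1 =>
    (eta_mono _ (by omega) x).trans (σ.dec x hx n1)
  have hM : P.c.M / 2 ≤ σ.E.M := by
    rw [le_div_iff₀' cd] at e3
    linarith [neg_abs_le (σ.E.M - P.c.M), abs_nonneg (σ.E.a - P.c.a), par.1]
  have h : Nr σ.c σ.E := ⟨σ.is.shape.co1, σ.is.eqs, by linarith [z.1]⟩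
  refine ⟨h, h.raw_ext σ.RK σ.Rp σ.RG, fun x j a hr hw => ?_⟩
  have f0 : 0 ≤ fh P σ j := mul_nonneg e0.le (wt_pos _ _).le
  have f1 : fh P σ j ≤ σ.eps := mul_le_of_le_one_right e0.le
    ((wt_le_wt (by linarith) j).trans_eq (wt_q0 j))
  refine k0 σ.c σ.E h rfl hM x x.2 a (σ.is.shape.rad1 x x.2).1 hr _ (fun _ => rfl)
    (C1 * fh P σ j) (by positivity) (fun i => ?_) ?_ _ (mul_assoc _ _ _).ge ?_
  · have w0 := wt_pos (-P.c.s0) j
    have n0 := σ.is.near.e0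
    have u : 0 ≤ P.c.C (max ρ (P.c.R1 + 3)) * Cb := mul_nonneg (zero_le_one.trans (ok.C _)) b0
    refine (q2_mono _ _ (show _ ≤ P.c.N0 by omega) _).trans ((kb (c := σ.c) t1
      (zero_le_one.trans ok.c0) σ.is.near D0 e0.le (by linarith [σ.e1]) (le_max_right ρ _) j x x.2
      a (hr.trans (le_max_left _ _)) (by
        push_cast; exact add_le_add hw (Nat.le_ceil _)) i).1.trans (pow_le_pow_left₀
        (mul_nonneg (mul_nonneg u (by positivity)) w0.le) (le_trans ?_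
          (mul_le_mul_of_nonneg_right c1 f0)) 2))
    rw [mul_assoc _ 2, mul_assoc _ (_ + _)]
    exact mul_le_mul_of_nonneg_left (by
      rw [fh, ← mul_assoc]; exact mul_le_mul_of_nonneg_right (by linarith [σ.e1]) w0.le) u
  · exact (h.dec (by linarith) σ.dec (by omega) t1 x.2 a hw).trans (pow_le_pow_left₀
      (mul_nonneg (mul_pos (Real.exp_pos _) (wt_pos _ _)).le f0)
      (mul_le_mul_of_nonneg_right c2 f0) 2)
  · exact (mul_le_mul_of_nonneg_left (f1.trans e2) c7.le).trans_eq (mul_inv_cancel₀ c7.ne')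

theorem nrt {P : Pr} (hP : P.Ok) : NRT P := fun n hn => by
  have hN := hP.N0
  have n4 := hP.n4 false
  have m1 := le_max_left (P.n true) (P.n false)
  have m2 := le_max_right (P.n true) (P.n false)
  have hi : P354IF.i0 P = max (P.n true) (P.n false) + 1 := rfl
  rw [Pr.n0] at hn hN
  obtain ⟨t, rfl⟩ : ∃ t, n = t + 1 := ⟨n - 1, by omega⟩
  obtain ⟨μ, hμ⟩ : ∃ μ, μ = 5 / 4 * |P.c.M| + 1 := ⟨_, rfl⟩
  have μ1 : 1 ≤ μ := by linarith [abs_nonneg P.c.M]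
  obtain ⟨K0, hK⟩ : ∃ K0, K0 = 64 * (4 * (72 * μ)) ^ (t + 1) := ⟨_, rfl⟩
  refine ⟨2 * 6 ^ (t + 1) * (486 * K0 ^ 2), 2 * μ, by positivity, fun R hR => ?_⟩
  obtain ⟨Cd, cd, kd⟩ := dict hP (t + 1) 2 (3 * R)
  obtain ⟨K, C, c0, kq⟩ := st_pq hP (t + 1) 2 (3 * R)
  obtain ⟨C1, k1, c1⟩ := ((uni_top t (P.c.N0 - 10) K).and (eventually_ge_atTop 1)).exists
  refine ⟨2 * 6 ^ (t + 1) * (4 * C1 ^ 2 * Cd * (1 + C ^ 2)), by positivity, ?_⟩
  filter_upwards [kd, kq, ev_e (t + 1) (show 0 < min 1 (C1 * C)⁻¹ by positivity)] with σ kd ⟨h, eR, kq⟩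
    he j x l Y TW b
  obtain ⟨e1, e2⟩ := le_min_iff.1 he.1
  have hw : |x.1 - P.c.t1 - j| ≤ (2 : ℕ) := abs_le.2 ⟨by push_cast; linarith [l.t.1],
    by push_cast; linarith [l.t.2]⟩
  have f0 : 0 ≤ fh P σ j := mul_nonneg σ.e0.le (wt_pos _ _).le
  have f1 : fh P σ j ≤ σ.eps := mul_le_of_le_one_right σ.e0.le
    ((wt_le_wt (by linarith [hP.s1]) j).trans_eq (wt_q0 j))
  have l0 : ∀ m, 0 ≤ σ.lv m x := fun m =>
    Finset.sum_nonneg fun _ _ => Finset.sum_nonneg fun _ _ => sq_nonneg _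
  have nb : ∀ m b, h.raw.brg.Nb (evP ⟨x, l.o⟩) b m √(σ.lv m x) := fun m b J hJ => by
    rw [← eR]
    refine Real.le_sqrt_of_sq_le ((Finset.single_le_sum (f := fun J => ‖fv (σ.f b J) x‖ ^ 2)
      (fun _ _ => sq_nonneg _) (P354XT.mem_words.2 hJ)).trans ?_)
    exact Finset.single_le_sum (f := fun b => ∑ J ∈ P354XT.words m, ‖fv (σ.f b J) x‖ ^ 2)
      (fun _ _ => Finset.sum_nonneg fun _ _ => sq_nonneg _) (Finset.mem_univ b)
  have top := k1 _ h.raw _ _ (kq ⟨x, l.o⟩ j l.an l.r.2 hw) (by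
    rw [← mul_assoc]
    exact (mul_le_mul_of_nonneg_left (f1.trans e2) (by positivity)).trans_eq
      (mul_inv_cancel₀ (by positivity))) _ _ (nb (t + 1)) (nb t)
  have fp : Fp h.raw (evP ⟨x, l.o⟩) μ x.2.1 := hμ ▸ nr_fp h ⟨x, l.o⟩ l.an (by
    have := l.r.1; change 5 / 4 * |P.c.M| + 1 ≤ x.2.1; linarith)
  have r0 : 0 < x.2.1 := one_pos.trans_le fp.r1
  have Y0 : 0 ≤ Y := le_trans (sq_nonneg _) (TW true (List.replicate (t + 1) default) [] _ 0
    (by simp) (Nat.zero_le _) (by simp) zero_le_one (.perm _ (.refl _)))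
  have tw : ∀ b, Tw (fun v => evP ⟨x, l.o⟩ (Dw h.raw.T.G v (h.raw.T.ps b))) (cond b 0 4)
      (P354IF.i0 P) (t + 1) (x.2.1 ^ (31 / 20 : ℝ)) x.2.1 √Y := fun b w y u k a1 a2 a3 a4 a5 =>
    Real.le_sqrt_of_sq_le (by have := TW b w y u k a1 a2 a3 a4 a5; rwa [eR] at this)
  have g := pt_le (l3_eq h) ⟨x, l.o⟩ b (n := P.n b) (by cases b <;> omega) (by cases b <;> omega)
    (by cases b <;> omega) (hP.n4 b) (by linarith) l.r.2 fp top (tw b) (Real.sqrt_nonneg _)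
  refine le_trans (by simpa only [St.gd, St.X, St.f, eR, Nat.add_sub_cancel] using g) ?_
  · have d := (kd.2 ⟨x, l.o⟩ j l.an l.r.2 hw).2
    have d1 := (d t (by omega)).2
    have d2 := (d (t + 1) le_rfl).2
    have n1 := eta_nn σ.E t x
    have n2 := mul_nonneg f0 (eta_nn σ.E (t + 1) x)
    have u : (√(σ.lv t x) + C * fh P σ j * √(σ.lv (t + 1) x)) ^ 2 ≤
        2 * Cd * (1 + C ^ 2) * (σ.E.eta t x + fh P σ j * σ.E.eta (t + 1) x) := by
      have v : (C * fh P σ j) ^ 2 * σ.lv (t + 1) x ≤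
          C ^ 2 * (Cd * (fh P σ j * σ.E.eta (t + 1) x)) := by
        rw [mul_pow, mul_assoc, mul_left_comm Cd]
        exact mul_le_mul_of_nonneg_left (mul_le_mul (by nlinarith [f1.trans e1]) d2 (l0 _) f0)
          (sq_nonneg _)
      nlinarith [sq_nonneg (√(σ.lv t x) - C * fh P σ j * √(σ.lv (t + 1) x)), Real.sq_sqrt (l0 t),
        Real.sq_sqrt (l0 (t + 1)), mul_nonneg cd.le n2, mul_nonneg (sq_nonneg C) (mul_nonneg cd.le n1),
        mul_pow (C * fh P σ j) √(σ.lv (t + 1) x) 2]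
    rw [← hK, Real.sq_sqrt Y0, mul_pow C1, Nat.add_sub_cancel]
    nlinarith [mul_le_mul_of_nonneg_left u (show 0 ≤ 4 * 6 ^ (t + 1) * C1 ^ 2 by positivity)]

end Vale.Agent.P354SO
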