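import Vale.Agent.P354XF.Tops
import Vale.Agent.P354XF.Uni

/-!
Words in the five letters and the outgoing operators, and their principal parts.
-/

namespace Vale.Agent.P354SO

open Filter
open P354XF P354XR
open P354FX (ct ev ev_add ev_sub ev_smul)
open P354FA (Lt)
open P354IF (ix Dw top)

variable {A : Type*} [CommRing A] [Algebra ℂ A] {ι : Type} (b : Brg A ι)

/-- The letters. -/
abbrev Gl : Type := Fin 5 ⊕ Fin 3

/-- The components, the terms of order zero, the words, the components in the frame. -/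
def gr : Gl → Fin 5 → A
  | .inl a => fun e => if e = a then 1 else 0
  | .inr _ => ![2 * (b.r * b.r + b.a * b.a), b.r * b.r - 2 * b.M * b.r + b.a * b.a, 0, 0, 2 * b.a]

def g0 : Gl → A
  | .inl _ => 0
  | .inr c => (c : ℕ) * (2 * b.r - 2 * b.M)

def gw : List Gl → A → A
  | [], v => v
  | g :: w, v => ∑ a, gr b g a * b.X a (gw w v) + g0 b g * gw w v

def hr (g : Gl) (x : Lt) : A := ∑ a, gr b g a * b.cX a (ix x)

/-- The principal part. -/
noncomputable def tp (σ : Bool) (w : List Gl) : A :=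
  b.wi σ * ev (w.map (hr b)) fun v => Dw b.T.G v (b.T.ps σ)

theorem gw_inl (a : Fin 5) (w : List Gl) (v : A) : gw b (.inl a :: w) v = b.X a (gw b w v) := by
  simp [gw, gr, g0]

theorem gw_map (I : List (Fin 5)) (w : List Gl) (v : A) :
    gw b (I.map .inl ++ w) v = wd b.X I (gw b w v) := by
  induction I with
  | nil => rfl
  | cons a I ih => rw [List.map_cons, List.cons_append, gw_inl, ih, wd]

theorem hr_inl (a : Fin 5) : hr b (.inl a) = fun x => b.cX a (ix x) := by
  funext x
  simp [hr, gr]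

omit [Algebra ℂ A] in
theorem ev_ev {κ κ' : Type*} [Fintype κ] [Fintype κ'] (ρ : κ → κ' → A) (l : List (κ → A))
    (l' : List (κ' → A)) (T : List κ' → A) : ev l (fun I => ev (I.map ρ ++ l') T) =
      ev (l.map (fun c x => ∑ a, c a * ρ a x) ++ l') T := by
  induction l generalizing T with
  | nil => rfl
  | cons c l ih =>
    rw [ev, ev_ct, List.map_cons, List.cons_append, ev, ev_ct]
    simp only [List.map_cons, List.cons_append, ev, ih]
    simp only [ev_ct, Finset.mul_sum, Finset.sum_mul, mul_assoc]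
    exact Finset.sum_comm

variable {b} {j n l : ℕ}

theorem ev_cl {p : A → Prop} (h0 : p 0) (h1 : ∀ f g, p f → p g → p (f + g))
    (h2 : ∀ x ∈ b.S, ∀ f, p f → p (x * f)) (L : List (Fin 5 → A)) (hL : ∀ Y ∈ L, ∀ a, Y a ∈ b.S)
    (T : List (Fin 5) → A) (h : ∀ w, w.length = L.length → p (T w)) : p (ev L T) := by
  induction L generalizing T with
  | nil => exact h [] rfl
  | cons Y L ih =>
    exact ih (fun Z hZ => hL Z (List.mem_cons_of_mem Y hZ)) _ fun w hw =>
      Finset.sum_induction _ _ h1 h0 fun a _ =>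
        h2 _ (hL Y (by simp) a) _ (h (a :: w) (by simp [hw]))

variable (h : b.Is)
include h

theorem ev_X (c : Fin 5) (L : List (Fin 5 → A)) (hL : ∀ Y ∈ L, ∀ a, Y a ∈ b.S)
    (T : List (Fin 5) → A) (hT : ∀ w, w.length = L.length → b.U.Ma j n 1 l (T w)) :
    b.U.Ma j n 1 l (b.X c (ev L T) - ev L fun w => b.X c (T w)) := by
  induction L generalizing T with
  | nil => exact cast (congrArg _ (sub_self _).symm) Duo.Ma.zero
  | cons Y L ih =>
    have hL' := fun Z hZ => hL Z (List.mem_cons_of_mem Y hZ)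
    have k : ∀ Y : Fin 5 → A, (∀ a, Y a ∈ b.S) → ∀ w : List (Fin 5), w.length = L.length →
        b.U.Ma j n 1 l (ct Y T w) := fun Y hY w hw =>
      Duo.Ma.sum _ fun a _ => (hT (a :: w) (by simp [hw])).smul (hY a)
    refine cast (congrArg _ ?_) ((ih hL' _ (k Y (hL Y (by simp)))).add (ev_cl Duo.Ma.zero
      (fun _ _ => Duo.Ma.add) (fun _ hx _ => Duo.Ma.smul hx) L hL' _
        (k (fun a => b.X c (Y a)) fun a => h.sX c (hL Y (by simp) a))))
    have e : (fun w => b.X c (ct Y T w)) =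
        ct Y (fun w => b.X c (T w)) + ct (fun a => b.X c (Y a)) T := by
      funext w
      simp only [ct, map_sum, Derivation.leibniz, smul_eq_mul, Pi.add_apply,
        Finset.sum_add_distrib, mul_comm (T _)]
    simp only [e, ev_add, ev]
    ring

theorem gr_mem (g : Gl) : (∀ a, gr b g a ∈ b.S) ∧ g0 b g ∈ b.S := by
  have := h.r
  have := h.M
  have := h.a
  have : (2 : A) ∈ b.S := ofNat_mem _ 2
  rcases g with a | c
  · refine ⟨fun e => ?_, zero_mem _⟩
    simp only [gr]
    split_ifs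
    exacts [one_mem _, zero_mem _]
  · refine ⟨fun e => ?_, mul_mem (natCast_mem _ _) (sub_mem (mul_mem ‹_› ‹_›) (mul_mem ‹_› ‹_›))⟩
    fin_cases e <;> simp only [gr, Fin.reduceFinMk, Matrix.cons_val] <;> repeat' first
      | assumption | exact zero_mem _ | apply add_mem | apply sub_mem | apply mul_mem

theorem gw_m (σ : Bool) (J : List (Fin 5)) (w : List Gl) :
    b.U.Ma (J.length + w.length) (J.length + w.length) 1 w.length (gw b w (b.fm σ J)) := by
  induction w with
  | nil => exact h.m_fm σ J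
  | cons g w ih =>
    exact (Duo.Ma.sum _ fun a _ => (h.mX a ih).smul ((gr_mem h g).1 a)).add
      ((ih.mono (by simp) (by simp) le_rfl (by simp)).smul (gr_mem h g).2)

theorem gw_pr (σ : Bool) {J : List (Fin 5)} {k : ℕ} (hJ : J.length = k + 1) (w : List Gl) :
    b.U.Ma (k + w.length) (k + w.length) 1 w.length
      (gw b w (b.fm σ J) - ev (w.map (gr b)) fun I => wd b.X I (b.fm σ J)) := by
  induction w with
  | nil => exact cast (congrArg _ (sub_self _).symm) Duo.Ma.zero
  | cons g w ih =>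
    have e := fun c => ev_X (j := k + w.length + 1) (n := k + w.length + 1) (l := w.length + 1) h c
      (w.map (gr b)) (List.forall_mem_map.2 fun g _ => (gr_mem h g).1) _ fun I hI => by
        have := gw_m h σ J (I.map .inl ++ [])
        rw [gw_map] at this
        exact this.mono (by simp at hI ⊢; omega) (by simp at hI ⊢; omega) le_rfl
          (by simp at hI ⊢; omega)
    refine cast (congrArg _ ?_) ((Duo.Ma.sum Finset.univ fun a _ => ((h.mX a ih).add (e a)).smul
      ((gr_mem h g).1 a)).add (((gw_m h σ J w).mono (by omega) (by omega) le_rfl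
        (by omega)).smul (gr_mem h g).2))
    rw [List.map_cons, ev, ev_ct]
    simp only [gw]
    rw [add_sub_right_comm, ← Finset.sum_sub_distrib]
    refine congrArg₂ (· + ·) (Finset.sum_congr rfl fun a _ => ?_) rfl
    rw [map_sub, sub_add_sub_cancel, mul_sub]
    rfl

theorem gw_top (σ : Bool) {J : List (Fin 5)} {k : ℕ} (hJ : J.length = k + 1) (w : List Gl) :
    ∃ q, b.U.Qa (k + w.length + 1) (k + w.length + 1) w.length q ∧
      b.U.Ma (k + w.length) (k + w.length + 1) 1 w.length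
        (gw b w (b.fm σ J) - tp b σ (w ++ J.map .inl) - q) := by
  have m : ∀ Y ∈ w.map (gr b), ∀ a, Y a ∈ b.S := List.forall_mem_map.2 fun g _ => (gr_mem h g).1
  refine ⟨_, ev_cl Duo.Qa.zero (fun _ _ => Duo.Qa.add) (fun _ hx _ => Duo.Qa.smul hx) _ m
    (fun I => wd b.X I (b.fm σ J) - b.fm σ (I ++ J)) fun I hI => (h.hon σ I J).mono
      (by simp at hI; omega) (by simp at hI; omega) (by simp at hI; omega), ?_⟩
  refine cast (congrArg _ ?_) (((gw_pr h σ hJ w).mono le_rfl (Nat.le_succ _) le_rfl le_rfl).add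
    (ev_cl Duo.Ma.zero (fun _ _ => Duo.Ma.add) (fun _ hx _ => Duo.Ma.smul hx) _ m
      (fun I => b.fm σ (I ++ J) - top b σ (I ++ J)) fun I hI => (h.ma_top σ _ _
        (by simp at hI ⊢; omega)).mono le_rfl le_rfl le_rfl (Nat.zero_le _)))
  have e : tp b σ (w ++ J.map .inl) = ev (w.map (gr b)) fun I => top b σ (I ++ J) := by
    refine Eq.trans ?_ (ev_smul _ (b.wi σ) fun I => ev (I.map (fun a x => b.cX a (ix x)) ++
      J.map fun a x => b.cX a (ix x)) fun v => Dw b.T.G v (b.T.ps σ)).symm |>.trans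
      (congrArg _ (funext fun I => by simp [top]))
    rw [ev_ev, tp, List.map_append, List.map_map, List.map_map]
    simp only [Function.comp_def, hr_inl]
    rfl
  have s := fun T T' => ev_sub (w.map (gr b)) T T'
  simp only [Pi.sub_def] at s
  rw [e, s, s]
  ring

theorem al_m {t L N : ℕ} {K : ℝ} {f : A} (hf : b.U.Ma j n 1 l f) (h1 : j ≤ t) (h2 : n ≤ N)
    (h3 : l ≤ L) (h4 : t + 2 ≤ N) :
    b.Al L N K fun C _ φ => ∀ y, (∀ σ, b.Nb φ σ t y) → ‖φ f‖ ≤ C * y := by
  obtain ⟨C0, k0, c0⟩ := ((h.al_le (L := L) (K := K) h4).and (eventually_ge_atTop 0)).exists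
  obtain ⟨C1, c1, k1⟩ := hf.bd K
  filter_upwards [eventually_ge_atTop C0, eventually_ge_atTop (C1 * C0)] with C e1 e2 d φ q hd y hy
  refine (k1 _ _ _ _ _ φ q.pt h3 h2).trans ((mul_le_mul_of_nonneg_left ((b.T.al_mono φ h1).trans
    (k0 d φ q ((mul_le_mul_of_nonneg_right e1 q.nn).trans hd) y hy)) c1).trans ?_)
  rw [← mul_assoc]
  exact mul_le_mul_of_nonneg_right e2 (hy true).nn

variable (b) in
omit h in
/-- The inequalities; t + 1 is the top level. -/
def Top (t L : ℕ) (C d : ℝ) (φ : A →ₐ[ℂ] ℂ) : Prop :=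
  ∀ x y, (∀ σ, b.Nb φ σ (t + 1) x) → (∀ σ, b.Nb φ σ t y) → ∀ σ (w : List Gl) (J : List (Fin 5)),
    w.length ≤ L → (w.length + J.length ≤ t → ‖φ (gw b w (b.fm σ J))‖ ≤ C * (y + d * x)) ∧
      (w.length + J.length = t + 1 → J ≠ [] →
        ‖φ (gw b w (b.fm σ J) - tp b σ (w ++ J.map .inl))‖ ≤ C * (y + d * x))

theorem al_top (t L : ℕ) (K : ℝ) : b.Al L (t + 3) K fun C d φ => Top b t L C d φ := by
  have k1 := eventually_all.2 fun σ => ev_words t fun (w : List Gl) _ => ev_words t fun J _ =>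
    ev_imp fun h1 : w.length ≤ L => ev_imp fun h2 : w.length + J.length ≤ t =>
      al_m (K := K) (t := t) (N := t + 3) h (gw_m h σ J w) (by omega) (by omega) h1 (by omega)
  have k2 : ∀ᶠ C in atTop, ∀ σ, ∀ w : List Gl, w.length ≤ t + 1 → ∀ J : List (Fin 5),
      J.length ≤ t + 1 → w.length ≤ L → w.length + J.length = t + 1 → J ≠ [] → ∀ d φ,
      b.Pq L (t + 3) K d φ → C * d ≤ 1 → ∀ x y, (∀ σ, b.Nb φ σ (t + 1) x) → (∀ σ, b.Nb φ σ t y) →
        ‖φ (gw b w (b.fm σ J) - tp b σ (w ++ J.map .inl))‖ ≤ C * (y + d * x) :=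
    eventually_all.2 fun σ => ev_words _ fun w _ => ev_words _ fun J _ => ev_imp fun h1 =>
      ev_imp fun h2 => ev_imp fun h3 => by
        obtain ⟨k, hk⟩ := Nat.exists_eq_succ_of_ne_zero (mt List.length_eq_zero_iff.1 h3)
        obtain ⟨q, q1, q2⟩ := gw_top h σ hk w
        filter_upwards [h.al_q (K := K) (t := t + 1) q1 (by omega) (by omega) h1,
          al_m (K := K) (t := t) (N := t + 3) h q2 (by omega) (by omega) h1 (by omega)] with C e1 e2
          d φ p hd x y hx hy
        rw [← sub_add_cancel (gw b w _ - _) q, map_add, mul_add, ← mul_assoc]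
        exact norm_add_le_of_le (e2 d φ p hd y hy) (e1 d φ p hd x hx)
  filter_upwards [k1, k2, eventually_ge_atTop 0] with C k1 k2 c d φ p hd x y hx hy σ w J hw
  exact ⟨fun e => (k1 σ w (by omega) J (by omega) hw e d φ p hd y hy).trans
    (mul_le_mul_of_nonneg_left (le_add_of_nonneg_right (mul_nonneg p.nn (hx true).nn)) c),
    fun e e' => k2 σ w (by omega) J (by omega) hw e e' d φ p hd x y hx hy⟩

end Vale.Agent.P354SO

namespace Vale.Agent.P354SO

open Filter P354XF P354XR
open P354IF (Dw)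

variable {A : Type} [CommRing A] [Algebra ℂ A] (R : Raw A)

theorem gr_ix (g : Gl) : (∀ a, gr univ.brg g a R.ix = gr R.brg g a) ∧
    g0 univ.brg g R.ix = g0 R.brg g := by
  rcases g with c | c
  · refine ⟨fun a => ?_, rfl⟩
    simp only [gr]
    split_ifs <;> rfl
  · exact ⟨fun a => by fin_cases a <;> rfl, rfl⟩

theorem gw_ix (w : List Gl) (f : ∀ j : Uv, j.A) :
    gw univ.brg w f R.ix = gw R.brg w (f R.ix) := by
  induction w with
  | nil => rfl
  | cons g w ih =>
    simp only [gw, Pi.add_apply, Finset.sum_apply, Pi.mul_apply, Raw.X_ix, ih, gr_ix]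

theorem tp_ix (σ : Bool) (w : List Gl) : tp univ.brg σ w R.ix = tp R.brg σ w := by
  rw [tp, tp, Pi.mul_apply]
  refine congrArg₂ (· * ·) (show univ.brg.wi σ R.ix = R.brg.wi σ by cases σ <;> rfl)
    ((map_ev (Pi.evalRingHom (fun j : Uv => j.A) R.ix) (w.map (hr univ.brg)) _).trans
      (congrArg₂ _ ?_ ?_))
  · rw [List.map_map]
    refine List.map_congr_left fun g _ => funext fun x => ?_
    simp only [Function.comp_apply, Pi.evalRingHom_apply, hr, Finset.sum_apply, Pi.mul_apply, gr_ix]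
    exact Finset.sum_congr rfl fun a _ =>
      congrArg _ (Raw.cX_pi (fun j : Uv => j.R) R.ix a _)
  · exact funext fun v => (R.wdT_ix _ _).trans (congrArg _ (R.ps_ix σ))

/-- One constant for all solutions. -/
theorem uni_top (t L : ℕ) (K : ℝ) : ∀ᶠ C in atTop,
    ∀ (A : Type) [CommRing A] [Algebra ℂ A] (R : Raw A) d φ, R.brg.Pq L (t + 3) K d φ →
      C * d ≤ 1 → Top R.brg t L C d φ :=
  (al_top univ.brg_is t L K).mono fun _ h _ _ _ R d φ q hd x y hx hy σ w J hw => by
    simpa only [Raw.up_ap, Pi.sub_apply, gw_ix, tp_ix, Raw.fm_ix] using h d _ (R.pq_up q) hd x y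
      (fun σ => R.nb_up (hx σ)) (fun σ => R.nb_up (hy σ)) σ w J hw

end Vale.Agent.P354SO
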