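import Vale.Agent.P354SO.Nr1
import Vale.Agent.P354XR.Es2

/-!
The sizes of the principal parts far out.
-/

open scoped ComplexConjugate

namespace Vale.Agent.P354SO

open P354XG P354XG.Geo P354XD P354XF P354XR
open P354FX (ct ev)
open P354FA (Lt)
open P354IF (ix Dw Mv)

/-- The product of the sizes of the coefficients of a word. -/
noncomputable def pr : List (Lt → ℂ) → List Lt → ℝ
  | Y :: l, x :: v => ‖Y x‖ * pr l v
  | _, _ => 1

theorem pr_nn : ∀ l v, 0 ≤ pr l v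
  | _ :: l, _ :: v => mul_nonneg (norm_nonneg _) (pr_nn l v)
  | [], _ => zero_le_one
  | _ :: _, [] => zero_le_one

theorem ev_bd {q : ℝ} (hq : 0 ≤ q) : ∀ (l : List (Lt → ℂ)) (T : List Lt → ℂ) (B : ℝ),
    (∀ v, v.length = l.length → pr l v * (q * ‖T v‖) ≤ B) → q * ‖ev l T‖ ≤ 4 ^ l.length * B
  | [], T, B, h => by simpa [pr, ev] using h [] rfl
  | Y :: l, T, B, h => by
    rw [List.length_cons, pow_succ, mul_assoc]
    refine ev_bd hq l _ _ fun v hv => ?_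
    refine (mul_le_mul_of_nonneg_left (mul_le_mul_of_nonneg_left (norm_sum_le _ _) hq)
      (pr_nn _ _)).trans ?_
    rw [Finset.mul_sum, Finset.mul_sum]
    refine (Finset.sum_le_card_nsmul _ _ B fun x _ => le_trans (le_of_eq ?_)
      (h (x :: v) (by simp [hv]))).trans_eq (by simp)
    rw [pr, norm_mul]
    ring

theorem pr_app : ∀ (l : List (Lt → ℂ)) (v : List Lt), v.length = l.length → ∀ l' v',
    pr (l ++ l') (v ++ v') = pr l v * pr l' v'
  | [], [], _, _, _ => (one_mul _).symm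
  | Y :: l, x :: v, h, l', v' => by
    rw [List.cons_append, List.cons_append, pr, pr, pr_app l v (by simpa using h), mul_assoc]

/-- The letters m and mb. -/
def an (x : Lt) : Bool := x.1 != x.2

theorem pr_le {c r : ℝ} (hc : 0 ≤ c) (hr : 0 ≤ r) : ∀ (l : List (Lt → ℂ)) (v : List Lt),
    v.length = l.length → (∀ Y ∈ l, ∀ x, ‖Y x‖ ≤ c * cond (an x) r 1) →
      pr l v ≤ c ^ l.length * r ^ (v.filter an).length
  | [], [], _, _ => by simp [pr]
  | Y :: l, x :: v, h, k => by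
    refine (mul_le_mul (k Y (by simp) x) (pr_le hc hr l v (by simpa using h)
      fun Z hZ => k Z (List.mem_cons_of_mem _ hZ)) (pr_nn _ _)
        ((norm_nonneg _).trans (k Y (by simp) x))).trans_eq ?_
    cases e : an x <;> simp [e] <;> ring

/-- The weighted bound of the words of length n. -/
def Tw (T : List Lt → ℂ) (k0 i n : ℕ) (ρ r s : ℝ) : Prop :=
  ∀ (w y u : List Lt) (k : ℕ), w.length = n → y.length ≤ i → (true, true) ∉ y → k ≤ 1 →
    Mv (w, k0) (y ++ u, k) → ρ * r ^ y.length * ‖T w‖ ≤ s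

theorem ev_tw {T : List Lt → ℂ} {k0 k i p : ℕ} {ρ r s c : ℝ} {l m l' : List (Lt → ℂ)}
    {v0 y0 : List Lt} (h : Tw T k0 i (l ++ (m ++ l')).length ρ r s) (hρ : 0 ≤ ρ) (hr : 0 ≤ r)
    (hc : 0 ≤ c) (hs : 0 ≤ s) (h1 : ∀ Y ∈ l, ∀ x, ‖Y x‖ ≤ c * cond (an x) r 1)
    (h2 : ∀ Y ∈ l', ∀ x, ‖Y x‖ ≤ c) (h3 : ∀ v, v.length = m.length → v ≠ v0 → pr m v = 0)
    (h4 : pr m v0 ≤ c ^ m.length * r ^ p) (h5 : ∀ u, Mv (v0 ++ u, k0) (y0 ++ u, k)) (h6 : k ≤ 1)
    (h7 : (true, true) ∉ y0) (h8 : y0.length + l.length ≤ i) :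
    ρ * r ^ y0.length * ‖ev (l ++ (m ++ l')) T‖ ≤
      (4 * c) ^ (l ++ (m ++ l')).length * (r ^ p * s) := by
  rw [mul_pow, mul_assoc (_ ^ _)]
  refine ev_bd (by positivity) _ _ _ fun v hv => ?_
  rw [List.length_append, List.length_append] at hv
  obtain ⟨v1, v', rfl, e1⟩ : ∃ v1 v', v = v1 ++ v' ∧ v1.length = l.length :=
    ⟨v.take _, v.drop _, (List.take_append_drop l.length v).symm, by simp; omega⟩
  rw [List.length_append] at hv
  obtain ⟨v2, v3, rfl, e2⟩ : ∃ v2 v3, v' = v2 ++ v3 ∧ v2.length = m.length :=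
    ⟨v'.take _, v'.drop _, (List.take_append_drop m.length v').symm, by simp; omega⟩
  rw [List.length_append] at hv
  rw [pr_app _ _ e1, pr_app _ _ e2]
  by_cases e : v2 = v0
  swap
  · rw [h3 _ e2 e, zero_mul, mul_zero, zero_mul]
    positivity
  subst e
  have a1 := pr_le hc hr l v1 e1 h1
  have a3 := pr_le hc zero_le_one l' v3 (by omega) fun Y hY x => by simpa using h2 Y hY x
  have t := h (v1 ++ (v2 ++ v3)) (y0 ++ v1.filter an) (v1.filter (!an ·) ++ v3) k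
    (by simp; omega) (by
      rw [List.length_append]; exact (add_le_add_right ((List.length_filter_le _ _).trans e1.le)
        _).trans h8) (by simp [h7, an]) h6 (by
      rw [List.append_assoc]
      refine .trans (.perm _ ?_) (h5 _)
      rw [← List.append_assoc (v1.filter an)]
      exact (List.perm_append_comm_assoc _ _ _).trans
        (((List.filter_append_perm an v1).symm.append_right _).append_left _))
  rw [one_pow, mul_one] at a3
  have := pr_nn m v2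
  have := pr_nn l' v3
  calc _ ≤ c ^ l.length * r ^ (v1.filter an).length * (c ^ m.length * r ^ p * c ^ l'.length) *
        (ρ * r ^ y0.length * ‖T (v1 ++ (v2 ++ v3))‖) := by gcongr
    _ = c ^ (l ++ (m ++ l')).length * (r ^ p *
        (ρ * r ^ (y0 ++ v1.filter an).length * ‖T (v1 ++ (v2 ++ v3))‖)) := by
      simp only [List.length_append, pow_add]
      ring
    _ ≤ _ := by gcongr

variable {A : Type} [CommRing A] [Algebra ℂ A] {R : Raw A} {φ : A →ₐ[ℂ] ℂ} {μ r s t : ℝ} {u v : A}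

theorem xc_eq (R : Raw A) (b : Fin 6) : R.brg.cX 0 b = R.k.cK 0 b ∧ R.brg.cX 1 b = R.k.xe 1 b ∧
    ∀ j : Fin 3, R.brg.cX j.succ.succ b = oe R.K j 2 * R.k.xe 2 b + oe R.K j 3 * R.k.xe 3 b +
      oe R.K j 4 * R.k.xe 4 b + oe R.K j 5 * R.k.xe 5 b := by
  refine ⟨?_, ?_, fun j => ?_⟩
  · simp [Raw.brg, xc, Fin.sum_univ_six, KC.xe]
  · simp [Raw.brg, xc, Fin.sum_univ_six]
  · have : R.brg.cX j.succ.succ b = ∑ e, oe R.K j e * R.k.xe e b := by fin_cases j <;> rfl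
    rw [this, Fin.sum_univ_six, show oe R.K j 0 = 0 from rfl, show oe R.K j 1 = 0 from rfl]
    ring

theorem hr_ap (a : Fin 5) (x : Lt) : hr R.brg (.inl a) x = R.brg.cX a (ix x) :=
  congrFun (hr_inl _ a) x

theorem hr_inr (R : Raw A) (c : Fin 3) (x : Lt) : hr R.brg (.inr c) x =
    if x = (false, false) then (R.k.r * R.k.r + R.k.a * R.k.a * R.k.x * R.k.x) * R.k.Ni else 0 := by
  have k := R.kp.is
  have e : hr R.brg (.inr c) x = 2 * R.k.W * R.k.cK 0 (ix x) + R.k.De * R.k.xe 1 (ix x) +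
      2 * R.k.a * R.brg.cX (2 : Fin 3).succ.succ (ix x) := by
    simp only [hr, gr, Fin.sum_univ_five, Matrix.cons_val, zero_mul, add_zero, (xc_eq R _).1,
      (xc_eq R _).2.1]
    rfl
  have i := ii_sq (A := A)
  have h := two_hf (A := A)
  have s := k.hs
  have g := k.hg
  rw [e, (xc_eq R _).2.2, show oe R.K 2 2 = hf A * ii A * R.k.s by simp [oe, wm_two]; rfl,
    show oe R.K 2 3 = -(hf A * ii A * R.k.sb) by simp [oe, wb_two]; rfl]
  rcases x with ⟨_ | _, _ | _⟩ <;>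
    simp only [ix, KC.xe, KC.cK, KC.W, KC.z, KC.zb, Matrix.cons_val, reduceCtorEq, Prod.mk.injEq,
      and_self, and_false, false_and, if_true, if_false] <;> grind

/-- Bounds at the point. -/
def Le (φ : A →ₐ[ℂ] ℂ) (u : A) (t : ℝ) : Prop := ‖φ u‖ ≤ t

theorem Le.mul (h : Le φ u s) (k : Le φ v t) : Le φ (u * v) (s * t) := by
  rw [Le, map_mul, norm_mul]
  exact mul_le_mul h k (norm_nonneg _) ((norm_nonneg _).trans h)
theorem Le.add (h : Le φ u s) (k : Le φ v t) : Le φ (u + v) (s + t) := by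
  rw [Le, map_add]; exact norm_add_le_of_le h k
theorem Le.sub (h : Le φ u s) (k : Le φ v t) : Le φ (u - v) (s + t) := by
  rw [Le, map_sub]; exact norm_sub_le_of_le h k
theorem Le.neg (h : Le φ u s) : Le φ (-u) s := by rwa [Le, map_neg, norm_neg]
theorem Le.mono (h : Le φ u s) (k : s ≤ t) : Le φ u t := h.trans k
theorem le_zero : Le φ 0 0 := by simp [Le]
theorem le_ii : Le φ (ii A) 1 := by simp [Le, ii]
theorem le_hf : Le φ (hf A) 1 := by simp [Le, hf]; norm_num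
theorem le_two : Le φ 2 2 := by simp [Le, map_ofNat]

/-- A point at the radius r. -/
structure Fp (R : Raw A) (φ : A →ₐ[ℂ] ℂ) (μ r : ℝ) : Prop where
  cj : ∀ f, φ (R.K.c f) = conj (φ f)
  hr : φ (R.K.z 1) = r
  hn : ∃ n : ℝ, φ R.K.N = n ∧ 1 / 2 ≤ n ∧ n ≤ 2
  hM : Le φ R.p.M μ
  ha : ∃ a : ℝ, φ R.p.a = a ∧ |a| ≤ μ
  m1 : 1 ≤ μ
  mr : μ ≤ r

namespace Fp
variable (h : Fp R φ μ r)
include h

theorem r1 : 1 ≤ r := h.m1.trans h.mr

theorem bas : Le φ R.k.N 2 ∧ Le φ R.k.Ni 2 ∧ Le φ R.k.r r ∧ Le φ R.k.a μ ∧ Le φ R.k.x 1 ∧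
    Le φ R.k.s 2 ∧ Le φ R.k.sb 2 ∧ Le φ R.k.sg (r ^ 2)⁻¹ ∧
    ∀ j, Le φ (wm R.K j) 2 ∧ Le φ (wb R.K j) 2 := by
  obtain ⟨n, hn, n1, n2⟩ := h.hn
  obtain ⟨a, ha, a1⟩ := h.ha
  have r1 := h.r1
  have s : ∀ {t : ℝ}, t ^ 2 ≤ 2 → t ≤ 2 := fun h => by nlinarith
  have w := fun j => w_le R.kp.h h.cj j
  have e : ∀ {u} {t B : ℝ}, φ u = t → |t| ≤ B → Le φ u B := fun e k => by
    rwa [Le, e, Complex.norm_real]
  refine ⟨e hn (abs_le.2 ⟨by linarith, n2⟩), inv_le R.kp.h.hN hn (by linarith) two_pos.le,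
    e h.hr (abs_le.2 ⟨by linarith, le_rfl⟩), e ha a1,
    (sq_le_one_iff₀ (norm_nonneg _)).1 (w 2).1,
    s (t := ‖φ R.K.kc.s‖) (by simpa [wm_two] using (w 2).2.1),
    s (t := ‖φ R.K.kc.sb‖) (by simpa [wb_two] using (w 2).2.2), ?_,
    fun j => ⟨s (w j).2.1, s (w j).2.2⟩⟩
  refine inv_le ((mul_comm _ _).trans R.kp.q.hg) (t := r ^ 2 + a ^ 2 * ‖φ R.K.kc.x‖ ^ 2) ?_
    (by rw [inv_mul_eq_div, one_le_div (by positivity)]; exact le_add_of_nonneg_right (by
      positivity)) (by positivity)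
  have x := h.cj R.K.kc.x
  rw [show R.K.c R.K.kc.x = _ from R.kp.h.kc.c_x] at x
  simp only [map_add, map_mul, h.hr, ha, mul_assoc]
  nth_rw 2 [x]
  rw [Complex.mul_conj']
  push_cast
  ring

theorem bas2 : Le φ (R.k.r + ii A * R.k.a * R.k.x) (2 * r) ∧
    Le φ (R.k.r - ii A * R.k.a * R.k.x) (2 * r) ∧ Le φ R.k.z (2 / r) ∧ Le φ R.k.zb (2 / r) ∧
    Le φ (R.k.r * R.k.r + R.k.a * R.k.a * R.k.x * R.k.x) (2 * r ^ 2) ∧
    Le φ (R.k.De * R.k.sg) 4 := by
  obtain ⟨-, -, b3, b4, b5, -, -, b8, -⟩ := h.bas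
  have r1 := h.r1
  have b4 := b4.mono h.mr
  have e : r + 1 * r * 1 ≤ 2 * r := by linarith
  have p := (b3.add ((le_ii.mul b4).mul b5)).mono e
  have m := (b3.sub ((le_ii.mul b4).mul b5)).mono e
  have f : (r ^ 2)⁻¹ * (2 * r) ≤ 2 / r := le_of_eq (by field_simp)
  exact ⟨p, m, (b8.mul p).mono f, (b8.mul m).mono f,
    ((b3.mul b3).add (((b4.mul b4).mul b5).mul b5)).mono (by nlinarith),
    ((((b3.mul b3).sub ((le_two.mul (h.hM.mono h.mr)).mul b3)).add (b4.mul b4)).mul b8).mono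
      (le_of_eq (by field_simp; norm_num))⟩

theorem cK (x : Lt) : Le φ (R.k.cK 0 (ix x)) 8 := by
  obtain ⟨b1, b2, -, b4, -, b6, b7, -⟩ := h.bas
  obtain ⟨-, -, c3, c4, -, c6⟩ := h.bas2
  have r1 := h.r1
  have f : 1 * (1 * r * (2 / r) * 2) ≤ 8 := by field_simp; norm_num
  rcases x with ⟨_ | _, _ | _⟩
  · exact (le_hf.mul b2).mono (t := 8) (by norm_num)
  · exact (le_hf.mul (((le_ii.mul (b4.mono h.mr)).mul c3).mul b7)).mono f
  · exact (le_hf.mul (((le_ii.mul (b4.mono h.mr)).mul c4).mul b6)).neg.mono f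
  · exact (le_hf.mul (c6.mul b1)).mono (t := 8) (by norm_num)

theorem row0 (x : Lt) : ‖φ (P354SO.hr R.brg (.inl 0) x)‖ ≤ 72 * μ := by
  rw [hr_ap, (xc_eq R _).1]
  exact (h.cK x).mono (by linarith [h.m1])

theorem row (a : Fin 5) (x : Lt) :
    ‖φ (P354SO.hr R.brg (.inl a) x)‖ ≤ 72 * μ * cond (an x) r 1 := by
  obtain ⟨b1, -, -, b4, -, b6, b7, -, b9⟩ := h.bas
  obtain ⟨c1, c2, -⟩ := h.bas2
  have r1 := h.r1
  have m1 := h.m1
  have o : 1 ≤ cond (an x) r 1 := by cases an x; exacts [le_rfl, r1]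
  obtain rfl | ⟨a, rfl⟩ := a.eq_zero_or_eq_succ
  · exact (h.row0 x).trans (le_mul_of_one_le_right (by linarith) o)
  obtain rfl | ⟨j, rfl⟩ := a.eq_zero_or_eq_succ
  · rw [hr_ap, show (0 : Fin 4).succ = 1 from rfl, (xc_eq R _).2.1]
    refine le_trans ?_ (show 2 ≤ _ by nlinarith)
    rcases x with ⟨_ | _, _ | _⟩
    exacts [le_zero.mono two_pos.le, le_zero.mono two_pos.le, le_zero.mono two_pos.le, b1.neg]
  rw [hr_ap, (xc_eq R _).2.2]
  have o2 : Le φ (oe R.K j 2) _ := ((le_hf.mul le_ii).mul (b9 j).1).neg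
  have o3 : Le φ (oe R.K j 3) _ := (le_hf.mul le_ii).mul (b9 j).2
  have k2 := ((le_ii.mul b4).mul b7).mul (h.cK x)
  have k3 := ((le_ii.mul b4).mul b6).neg.mul (h.cK x)
  have z : ∀ e : Fin 6, e = 4 ∨ e = 5 → R.k.xe e (ix x) = 0 := by
    rintro _ (rfl | rfl) <;> rcases x with ⟨_ | _, _ | _⟩ <;> rfl
  rw [z 4 (.inl rfl), z 5 (.inr rfl), mul_zero, mul_zero, add_zero, add_zero]
  have mr := h.mr
  rcases x with ⟨_ | _, _ | _⟩
  · exact ((o2.mul (k2.add le_zero)).add (o3.mul (k3.add le_zero))).mono (by simp [an]; linarith)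
  · exact ((o2.mul (k2.add le_zero)).add (o3.mul (k3.add c1))).mono (by simp [an]; nlinarith)
  · exact ((o2.mul (k2.add c2)).add (o3.mul (k3.add le_zero))).mono (by simp [an]; nlinarith)
  · exact ((o2.mul (k2.add le_zero)).add (o3.mul (k3.add le_zero))).mono (by simp [an]; linarith)

theorem wi (σ : Bool) : ‖φ (R.brg.wi σ)‖ ≤ 64 * r ^ cond σ 4 0 := by
  obtain ⟨b1, b2, -⟩ := h.bas
  obtain ⟨-, c2, -, c4, c5, -⟩ := h.bas2
  have r1 := h.r1
  cases σ
  · exact (((((b1.mul b1).mul c4).mul c4).mul c2).mul c2).mono (le_of_eq (by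
      field_simp; norm_num))
  · exact (((b2.mul b2).mul c5).mul c5).mono (by
      rw [cond_true]; nlinarith [pow_nonneg (zero_le_one.trans r1) 4])

/-- The principal part of a word which ends with k letters T. -/
theorem tp_le {σ : Bool} {I : List (Fin 5)} {m : List Gl} {k k1 i p e n : ℕ} {ρ : ℝ}
    {v0 y0 : List Lt} (hn : I.length + (m.length + k) = n)
    (T : Tw (fun v => φ (Dw R.T.G v (R.T.ps σ))) (cond σ 0 4) i n ρ r s) (hρ : 0 ≤ ρ) (hs : 0 ≤ s)
    (h3 : ∀ v, v.length = m.length → v ≠ v0 →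
      pr (m.map fun g x => φ (P354SO.hr R.brg g x)) v = 0)
    (h4 : pr (m.map fun g x => φ (P354SO.hr R.brg g x)) v0 ≤ (72 * μ) ^ m.length * r ^ p)
    (h5 : ∀ u, Mv (v0 ++ u, cond σ 0 4) (y0 ++ u, k1)) (h6 : k1 ≤ 1) (h7 : (true, true) ∉ y0)
    (h8 : y0.length + I.length ≤ i) (he : cond σ 4 0 + p = e + y0.length) :
    ρ * ‖φ (tp R.brg σ (I.map .inl ++ m ++ (List.replicate k 0).map .inl))‖ ≤
      64 * (4 * (72 * μ)) ^ n * r ^ e * s := by
  have r0 : 0 < r := one_pos.trans_le h.r1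
  have m1 := h.m1
  have := ev_tw (l := (I.map .inl).map fun g x => φ (P354SO.hr R.brg g x))
    (l' := ((List.replicate k 0).map .inl).map fun g x => φ (P354SO.hr R.brg g x)) (p := p)
    (m := m.map fun g x => φ (P354SO.hr R.brg g x)) (T := fun v => φ (Dw R.T.G v (R.T.ps σ)))
    (by simpa [hn] using T) hρ r0.le (by positivity) hs
    (List.forall_mem_map.2 (List.forall_mem_map.2 fun a _ => h.row a))
    (List.forall_mem_map.2 (List.forall_mem_map.2 fun a ha => by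
      rw [List.eq_of_mem_replicate ha]; exact h.row0)) (by simpa using h3) (by simpa using h4) h5 h6
    h7 (by simpa using h8)
  rw [← List.map_append, ← List.map_append, ← List.append_assoc,
    show (List.map _ (_ ++ m ++ _)).length = n by simpa using hn] at this
  rw [tp, map_mul, norm_mul, show φ (ev _ _) = _ from map_ev φ.toRingHom _ _, List.map_map]
  refine le_of_mul_le_mul_right ?_ (pow_pos r0 y0.length)
  rw [mul_left_comm, mul_assoc, mul_right_comm ρ]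
  calc _ ≤ 64 * r ^ cond σ 4 0 * ((4 * (72 * μ)) ^ n * (r ^ p * s)) :=
      mul_le_mul (h.wi σ) this (by positivity) (by positivity)
    _ = 64 * (4 * (72 * μ)) ^ n * r ^ (cond σ 4 0 + p) * s := by ring
    _ = _ := by rw [he]; ring

end Fp

end Vale.Agent.P354SO
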